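import Vale.Agent.P078.Tracial.Statement
import Vale.Agent.P078.Tracial.Two.Main

/-! So-paving with at most `C / ε ^ 2` pieces over every maximal abelian subalgebra of every
von Neumann algebra with a faithful normal semifinite trace. -/

namespace Vale.Agent.Results.P078.SemifiniteQuadraticSoPaving

open Vale.Agent.P078.Tracial

/-- There is a universal constant `C` such that for `0 < ε ≤ 1` at most `C (1/ε) ^ 2` pieces
suffice for so-paving every self-adjoint element over every MASA of every von Neumann algebra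
with a faithful normal semifinite trace. -/
theorem result :
    ∃ C : ℝ, 0 < C ∧ ∀ ε : ℝ, 0 < ε → ε ≤ 1 → ∃ n : ℕ, (n : ℝ) ≤ C * (1 / ε) ^ 2 ∧
      ∀ (H : Type) [NormedAddCommGroup H] [InnerProductSpace ℂ H] [CompleteSpace H]
        (M : VonNeumannAlgebra H) (A : StarSubalgebra ℂ (H →L[ℂ] H)),
        SubalgebraOf M A → IsAbelianAlg A → ContainsRelCommutant M A →
        ∀ (I : Type) (ξ : I → H), SemifiniteTrace M ξ → AllSoPavableIn M A ε n := by
  obtain ⟨C, hC, h⟩ := Two.soPavableIn_semifinite_quadratic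
  refine ⟨C, hC, fun ε hε hε1 => ?_⟩
  obtain ⟨n, hn, hpav⟩ := h ε hε hε1
  exact ⟨n, hn, fun H _ _ _ M A h1 h2 h3 I ξ hξ x hx hxs =>
    hpav H M A h1 h3 h2 I ξ hξ x hx hxs⟩

end Vale.Agent.Results.P078.SemifiniteQuadraticSoPaving
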